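import Vale.Agent.P181.H482.Hat

set_option autoImplicit false

/-!
# From the binary kernel theorem to the products with few marks (block E)

Slots are indexed by `ι`, letters by `ι ⊕ κ`; a slot has one variable `x_p` (affine chart of the
line), a letter is a linear form `α_j x + β_j`.  The slots in `A` are marked: at a marked slot
`p` the exponent of the letter `p` is `s`, all other exponents are `s + 1`.
-/

namespace Vale.Agent.P181.H482

open MvPolynomial

noncomputable section

variable {K : Type*} [Field K] {ι κ : Type*} [Fintype ι] [DecidableEq ι] [Fintype κ]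
  [DecidableEq κ]

/-- the linear form `α_j x_p + β_j` with formal `α_j`, `β_j` -/
def lin (j : ι ⊕ κ) (p : ι) : MvPolynomial (ι ⊕ ((ι ⊕ κ) × Fin 2)) K :=
  X (Sum.inr (j, 0)) * X (Sum.inl p) + X (Sum.inr (j, 1))

/-- the products of powers of these forms -/
def PP (e : ι × (ι ⊕ κ) → ℕ) : MvPolynomial (ι ⊕ ((ι ⊕ κ) × Fin 2)) K :=
  ∏ x : ι × (ι ⊕ κ), lin x.2 x.1 ^ e x

/-- exponents: marked slots in `A` -/
def ee (s : ℕ) (A : Finset ι) (x : ι × (ι ⊕ κ)) : ℕ :=
  if x.2 = Sum.inl x.1 ∧ x.1 ∈ A then s else s + 1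

theorem PP_add (e f : ι × (ι ⊕ κ) → ℕ) : PP (K := K) (e + f) = PP e * PP f := by
  rw [PP, PP, PP, ← Finset.prod_mul_distrib]
  apply Finset.prod_congr rfl
  intro x _
  rw [Pi.add_apply, pow_add]

theorem PP_single (x : ι × (ι ⊕ κ)) : PP (K := K) (Pi.single x 1) = lin x.2 x.1 := by
  rw [PP, Finset.prod_eq_single x]
  · simp
  · intro y _ hy
    rw [Pi.single_eq_of_ne hy, pow_zero]
  · simp

theorem lin_mul_PP (e : ι × (ι ⊕ κ) → ℕ) (x : ι × (ι ⊕ κ)) :
    lin x.2 x.1 * PP (K := K) e = PP (e + Pi.single x 1) := by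
  rw [PP_add, PP_single, mul_comm]

theorem der_prod {R A : Type*} [CommRing R] [CommRing A] [Algebra R A] {X : Type*}
    [DecidableEq X] (D : Derivation R A A) (s : Finset X) (f : X → A) :
    D (∏ x ∈ s, f x) = ∑ x ∈ s, (∏ y ∈ s.erase x, f y) * D (f x) := by
  induction s using Finset.induction_on with
  | empty => simp
  | insert a s ha ih =>
    rw [Finset.prod_insert ha, Derivation.leibniz, ih, Finset.sum_insert ha,
      Finset.erase_insert ha, smul_eq_mul, smul_eq_mul, Finset.mul_sum, add_comm]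
    congr 1
    apply Finset.sum_congr rfl
    intro x hx
    have hxa : a ≠ x := fun h => ha (h ▸ hx)
    rw [Finset.erase_insert_of_ne hxa, Finset.prod_insert (by simp [ha])]
    ring

theorem pderiv_PP (v : ι ⊕ ((ι ⊕ κ) × Fin 2)) (e : ι × (ι ⊕ κ) → ℕ) :
    pderiv v (PP (K := K) e) =
      ∑ x : ι × (ι ⊕ κ), (e x : MvPolynomial (ι ⊕ ((ι ⊕ κ) × Fin 2)) K) *
        (pderiv v (lin x.2 x.1) * PP (e - Pi.single x 1)) := by
  rw [PP, der_prod]
  apply Finset.sum_congr rfl
  intro x _
  rcases Nat.eq_zero_or_pos (e x) with h | h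
  · rw [h]
    simp
  · have h1 : PP (K := K) (e - Pi.single x 1)
        = (∏ y ∈ Finset.univ.erase x, lin y.2 y.1 ^ e y) * lin x.2 x.1 ^ (e x - 1) := by
      rw [PP, ← Finset.prod_erase_mul _ _ (Finset.mem_univ x)]
      congr 1
      · apply Finset.prod_congr rfl
        intro y hy
        rw [Pi.sub_apply, Pi.single_eq_of_ne (Finset.ne_of_mem_erase hy), Nat.sub_zero]
      · simp
    rw [h1, pderiv_pow]
    ring

/-- the values `x_p`, `1` -/
def sl (i : Fin 2) (p : ι) : MvPolynomial ι K := if i = 0 then X p else 1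

theorem pderiv_lin (r j : ι ⊕ κ) (i : Fin 2) (p : ι) :
    pderiv (Sum.inr (r, i)) (lin (K := K) j p) =
      if j = r then rename Sum.inl (sl i p) else 0 := by
  rw [lin, map_add, Derivation.leibniz, pderiv_X, pderiv_X, pderiv_X]
  by_cases h : j = r
  · subst h
    fin_cases i <;> simp [sl]
  · rw [if_neg h]
    have h0 : ((Sum.inr (j, (0 : Fin 2)) : ι ⊕ ((ι ⊕ κ) × Fin 2)) ≠ Sum.inr (r, i)) := by
      intro hh
      simp only [Sum.inr.injEq, Prod.mk.injEq] at hh
      exact h hh.1
    have h1 : ((Sum.inr (j, (1 : Fin 2)) : ι ⊕ ((ι ⊕ κ) × Fin 2)) ≠ Sum.inr (r, i)) := by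
      intro hh
      simp only [Sum.inr.injEq, Prod.mk.injEq] at hh
      exact h hh.1
    simp [h]

theorem lin_eq (j : ι ⊕ κ) (p : ι) : lin (K := K) j p =
    ∑ i : Fin 2, rename Sum.inr (X (j, i)) * rename Sum.inl (sl i p) := by
  rw [Fin.sum_univ_two, lin]
  simp [sl]


theorem pderiv_KK (s : ℕ) (A : Finset ι) (r : ι) (hr : r ∉ A) (i : Fin 2) :
    pderiv (Sum.inr (Sum.inl r, i)) (PP (K := K) (ee (κ := κ) s A)) =
      ((s + 1 : ℕ) : MvPolynomial (ι ⊕ ((ι ⊕ κ) × Fin 2)) K) *
        ∑ p : ι, rename Sum.inl (sl i p) * PP (ee s A - Pi.single (p, Sum.inl r) 1) := by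
  rw [pderiv_PP, Fintype.sum_prod_type, Finset.mul_sum]
  apply Finset.sum_congr rfl
  intro p _
  rw [Finset.sum_eq_single (Sum.inl r)]
  · simp only [pderiv_lin, if_true]
    have h : ee (κ := κ) s A (p, Sum.inl r) = s + 1 := by
      unfold ee
      rw [if_neg]
      rintro ⟨h1, h2⟩
      simp only [Sum.inl.injEq] at h1
      rw [← h1] at h2
      exact hr h2
    rw [h]
  · intro j _ hj
    simp only [pderiv_lin, if_neg hj, zero_mul, mul_zero]
  · simp

theorem hat_sum_rel (φ : MvPolynomial ι K →ₗ[K] K) (j : ι ⊕ κ) (p : ι)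
    (F : MvPolynomial (ι ⊕ ((ι ⊕ κ) × Fin 2)) K) :
    hat φ (lin j p * F) =
      ∑ i : Fin 2, X (j, i) * hat φ (rename Sum.inl (sl i p) * F) := by
  rw [lin_eq, Finset.sum_mul, map_sum]
  apply Finset.sum_congr rfl
  intro i _
  rw [mul_assoc, hat_letter_mul]

/-- exchange of two letters -/
def le (a b : ι ⊕ κ) : (ι ⊕ κ) × Fin 2 → (ι ⊕ κ) × Fin 2 := fun x => (Equiv.swap a b x.1, x.2)

theorem rename_lin (a b j : ι ⊕ κ) (p : ι) :
    rename (Sum.map id (le a b)) (lin (K := K) j p) = lin (Equiv.swap a b j) p := by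
  simp [lin, le]

theorem rename_PP (a b : ι ⊕ κ) (e : ι × (ι ⊕ κ) → ℕ) :
    rename (Sum.map id (le a b)) (PP (K := K) e) =
      PP (fun x => e (x.1, Equiv.swap a b x.2)) := by
  rw [PP, map_prod, PP]
  simp only [map_pow, rename_lin]
  rw [Fintype.prod_prod_type, Fintype.prod_prod_type]
  apply Finset.prod_congr rfl
  intro p _
  apply Fintype.prod_equiv (Equiv.swap a b)
  intro j
  simp

theorem rename_lin_slot (a b : ι) (j : ι ⊕ κ) (p : ι) :
    rename (Sum.map (Equiv.swap a b) id) (lin (K := K) j p) = lin j (Equiv.swap a b p) := by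
  simp [lin]

theorem rename_PP_slot (a b : ι) (e : ι × (ι ⊕ κ) → ℕ) :
    rename (Sum.map (Equiv.swap a b) id) (PP (K := K) e) =
      PP (fun x => e (Equiv.swap a b x.1, x.2)) := by
  rw [PP, map_prod, PP]
  simp only [map_pow, rename_lin_slot]
  rw [Fintype.prod_prod_type, Fintype.prod_prod_type]
  apply Fintype.prod_equiv (Equiv.swap a b)
  intro p
  apply Finset.prod_congr rfl
  intro j _
  simp

theorem ee_swap (s : ℕ) (A : Finset ι) (r p : ι) (hr : r ∉ A) (hp : p ∈ A) :
    (fun x : ι × (ι ⊕ κ) => ee s A (x.1, Equiv.swap (Sum.inl p) (Sum.inl r) x.2)) =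
      (ee s A - Pi.single (p, Sum.inl r) 1) + Pi.single (p, Sum.inl p) 1 := by
  have hpr : p ≠ r := fun h => hr (h ▸ hp)
  funext x
  obtain ⟨x, j⟩ := x
  simp only [Pi.add_apply, Pi.sub_apply, ee]
  by_cases hx : x = p
  · subst hx
    by_cases hj : j = Sum.inl x
    · subst hj
      have h1 : ((x, Sum.inl x) : ι × (ι ⊕ κ)) ≠ (x, Sum.inl r) := by simp [hpr]
      rw [Pi.single_eq_of_ne h1, Equiv.swap_apply_left]
      simp [hp, hpr.symm]
    · by_cases hj2 : j = Sum.inl r
      · subst hj2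
        have h1 : ((x, Sum.inl r) : ι × (ι ⊕ κ)) ≠ (x, Sum.inl x) := by simp [hpr.symm]
        rw [Pi.single_eq_of_ne h1, Equiv.swap_apply_right]
        simp [hp, hpr.symm]
      · have h1 : ((x, j) : ι × (ι ⊕ κ)) ≠ (x, Sum.inl x) := by simp [hj]
        have h2 : ((x, j) : ι × (ι ⊕ κ)) ≠ (x, Sum.inl r) := by simp [hj2]
        rw [Pi.single_eq_of_ne h1, Pi.single_eq_of_ne h2, Equiv.swap_apply_of_ne_of_ne hj hj2]
        simp
  · have h1 : ((x, j) : ι × (ι ⊕ κ)) ≠ (p, Sum.inl p) := by
      intro h; exact hx (Prod.mk.inj h).1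
    have h2 : ((x, j) : ι × (ι ⊕ κ)) ≠ (p, Sum.inl r) := by
      intro h; exact hx (Prod.mk.inj h).1
    rw [Pi.single_eq_of_ne h1, Pi.single_eq_of_ne h2]
    have h3 : (Equiv.swap (Sum.inl p) (Sum.inl r) j = Sum.inl x ∧ x ∈ A) ↔
        (j = Sum.inl x ∧ x ∈ A) := by
      constructor
      · rintro ⟨h, hxA⟩
        have hxr : x ≠ r := fun hh => hr (hh ▸ hxA)
        refine ⟨?_, hxA⟩
        have h4 : j = Equiv.swap (Sum.inl p) (Sum.inl r) (Sum.inl x) := by
          rw [← h, Equiv.swap_apply_self]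
        rw [h4, Equiv.swap_apply_of_ne_of_ne (by simpa using hx) (by simpa using hxr)]
      · rintro ⟨h, hxA⟩
        have hxr : x ≠ r := fun hh => hr (hh ▸ hxA)
        refine ⟨?_, hxA⟩
        rw [h, Equiv.swap_apply_of_ne_of_ne (by simpa using hx) (by simpa using hxr)]
    simp only [h3, Nat.sub_zero, Nat.add_zero]

theorem ee_slot (s : ℕ) (A : Finset ι) (r p : ι) (hr : r ∉ A) (hp : p ∉ A) :
    (fun x : ι × (ι ⊕ κ) => (ee s A - Pi.single (r, Sum.inl r) 1 : ι × (ι ⊕ κ) → ℕ)
      (Equiv.swap r p x.1, x.2)) = (ee s A - Pi.single (p, Sum.inl r) 1) := by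
  funext x
  obtain ⟨x, j⟩ := x
  simp only [Pi.sub_apply, ee]
  have h1 : (j = Sum.inl (Equiv.swap r p x) ∧ Equiv.swap r p x ∈ A) ↔
      (j = Sum.inl x ∧ x ∈ A) := by
    by_cases hxr : x = r
    · subst hxr
      rw [Equiv.swap_apply_left]
      simp [hr, hp]
    · by_cases hxp : x = p
      · subst hxp
        rw [Equiv.swap_apply_right]
        simp [hr, hp]
      · rw [Equiv.swap_apply_of_ne_of_ne hxr hxp]
  have h2 : (Pi.single ((r, Sum.inl r) : ι × (ι ⊕ κ)) 1 : ι × (ι ⊕ κ) → ℕ)
      (Equiv.swap r p x, j) = (Pi.single ((p, Sum.inl r) : ι × (ι ⊕ κ)) 1 : _ → ℕ) (x, j) := by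
    by_cases hxp : x = p
    · subst hxp
      rw [Equiv.swap_apply_right]
      by_cases hj : j = Sum.inl r
      · subst hj; simp
      · rw [Pi.single_eq_of_ne (by simp [hj]), Pi.single_eq_of_ne (by simp [hj])]
    · have hne : Equiv.swap r p x ≠ r := by
        intro h
        apply hxp
        have := congrArg (Equiv.swap r p) h
        simpa using this
      rw [Pi.single_eq_of_ne (by simp [hne]), Pi.single_eq_of_ne (by simp [hxp])]
  simp only [h1, h2]

theorem ee_insert (s : ℕ) (A : Finset ι) (r : ι) (hr : r ∉ A) :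
    (ee (κ := κ) s A - Pi.single (r, Sum.inl r) 1) = ee s (insert r A) := by
  funext x
  obtain ⟨x, j⟩ := x
  simp only [Pi.sub_apply, ee, Finset.mem_insert]
  by_cases hx : x = r
  · subst hx
    by_cases hj : j = Sum.inl x
    · subst hj; simp [hr]
    · rw [Pi.single_eq_of_ne (by simp [hj])]
      simp [hj]
  · rw [Pi.single_eq_of_ne (by simp [hx])]
    simp [hx]


/-- at a marked slot all one-letter changes are killed -/
theorem marked_zero (s : ℕ) (A : Finset ι) (r p : ι) (hr : r ∉ A) (hp : p ∈ A)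
    (φ : MvPolynomial ι K →ₗ[K] K) (h0 : hat (Λ := (ι ⊕ κ) × Fin 2) φ (PP (ee s A)) = 0)
    (i : Fin 2) :
    hat φ (rename Sum.inl (sl i p) *
      PP (K := K) (κ := κ) (ee s A - Pi.single (p, Sum.inl r) 1)) = 0 := by
  have hpr : p ≠ r := fun h => hr (h ▸ hp)
  set g : ι × (ι ⊕ κ) → ℕ := ee s A - Pi.single (p, Sum.inl r) 1 with hg
  -- relation from the letter `r`
  have hgr : g + Pi.single (p, Sum.inl r) 1 = ee s A := by
    rw [hg]
    funext x
    simp only [Pi.add_apply, Pi.sub_apply]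
    by_cases hx : x = (p, Sum.inl r)
    · subst hx
      have : ee (κ := κ) s A (p, Sum.inl r) = s + 1 := by
        unfold ee
        rw [if_neg]
        rintro ⟨h1, _⟩
        simp only [Sum.inl.injEq] at h1
        exact hpr h1.symm
      rw [this]; simp
    · rw [Pi.single_eq_of_ne hx]; simp
  have e1 := hat_sum_rel φ (Sum.inl r : ι ⊕ κ) p (PP g)
  rw [show lin (K := K) (Sum.inl r : ι ⊕ κ) p * PP g = PP (ee s A) by
    rw [← hgr]; exact lin_mul_PP g (p, Sum.inl r), h0] at e1
  have e2 := hat_sum_rel φ (Sum.inl p : ι ⊕ κ) p (PP g)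
  have hsw : lin (K := K) (Sum.inl p : ι ⊕ κ) p * PP g =
      rename (Sum.map id (le (Sum.inl p) (Sum.inl r))) (PP (ee s A)) := by
    rw [rename_PP, ee_swap s A r p hr hp]
    exact lin_mul_PP g (p, Sum.inl p)
  rw [hsw, hat_letter_rename, h0, map_zero] at e2
  rw [Fin.sum_univ_two] at e1 e2
  set u0 := hat φ (rename Sum.inl (sl 0 p) * PP (K := K) (κ := κ) g) with hu0
  set u1 := hat φ (rename Sum.inl (sl 1 p) * PP (K := K) (κ := κ) g) with hu1
  -- the determinant of the two relations
  have hdet : (X ((Sum.inl r : ι ⊕ κ), (0 : Fin 2)) * X ((Sum.inl p : ι ⊕ κ), (1 : Fin 2)) -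
      X ((Sum.inl r : ι ⊕ κ), (1 : Fin 2)) * X ((Sum.inl p : ι ⊕ κ), (0 : Fin 2)) :
      MvPolynomial ((ι ⊕ κ) × Fin 2) K) ≠ 0 := by
    intro hd
    have := congrArg (eval (fun x : (ι ⊕ κ) × Fin 2 =>
      if x = (Sum.inl r, 0) ∨ x = (Sum.inl p, 1) then (1 : K) else 0)) hd
    simp [hpr, hpr.symm] at this
  have f0 : (X ((Sum.inl r : ι ⊕ κ), (0 : Fin 2)) * X ((Sum.inl p : ι ⊕ κ), (1 : Fin 2)) -
      X ((Sum.inl r : ι ⊕ κ), (1 : Fin 2)) * X ((Sum.inl p : ι ⊕ κ), (0 : Fin 2)) :
      MvPolynomial ((ι ⊕ κ) × Fin 2) K) * u0 = 0 := by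
    linear_combination (-(X ((Sum.inl p : ι ⊕ κ), (1 : Fin 2)) :
      MvPolynomial ((ι ⊕ κ) × Fin 2) K)) * e1 +
      (X ((Sum.inl r : ι ⊕ κ), (1 : Fin 2)) : MvPolynomial ((ι ⊕ κ) × Fin 2) K) * e2
  have f1 : (X ((Sum.inl r : ι ⊕ κ), (0 : Fin 2)) * X ((Sum.inl p : ι ⊕ κ), (1 : Fin 2)) -
      X ((Sum.inl r : ι ⊕ κ), (1 : Fin 2)) * X ((Sum.inl p : ι ⊕ κ), (0 : Fin 2)) :
      MvPolynomial ((ι ⊕ κ) × Fin 2) K) * u1 = 0 := by
    linear_combination ((X ((Sum.inl p : ι ⊕ κ), (0 : Fin 2)) :
      MvPolynomial ((ι ⊕ κ) × Fin 2) K)) * e1 -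
      (X ((Sum.inl r : ι ⊕ κ), (0 : Fin 2)) : MvPolynomial ((ι ⊕ κ) × Fin 2) K) * e2
  have g0 : u0 = 0 := (mul_eq_zero.mp f0).resolve_left hdet
  have g1 : u1 = 0 := (mul_eq_zero.mp f1).resolve_left hdet
  fin_cases i
  · exact g0
  · exact g1

/-- the step of the descending induction -/
theorem step [CharZero K] (s : ℕ) (A : Finset ι) (r : ι) (hr : r ∉ A)
    (φ : MvPolynomial ι K →ₗ[K] K)
    (hsym : ∀ p, p ∉ A → ∀ f, φ (rename (Equiv.swap r p) f) = φ f)
    (h0 : hat (Λ := (ι ⊕ κ) × Fin 2) φ (PP (ee s A)) = 0) (i : Fin 2) :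
    hat (Λ := (ι ⊕ κ) × Fin 2) (pre φ (sl i r)) (PP (ee s (insert r A))) = 0 := by
  rw [hat_pre, ← ee_insert s A r hr]
  have h1 := hat_pderiv φ ((Sum.inl r : ι ⊕ κ), i) (PP (K := K) (κ := κ) (ee s A))
  rw [h0, map_zero, pderiv_KK s A r hr i] at h1
  rw [show ((s + 1 : ℕ) : MvPolynomial (ι ⊕ ((ι ⊕ κ) × Fin 2)) K) =
    rename Sum.inr (C ((s + 1 : ℕ) : K)) by simp, hat_letter_mul] at h1
  have h2 : hat φ (∑ p : ι, rename Sum.inl (sl i p) *
      PP (K := K) (κ := κ) (ee s A - Pi.single (p, Sum.inl r) 1)) = 0 := by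
    rcases mul_eq_zero.mp h1 with h | h
    · exfalso
      rw [C_eq_zero] at h
      exact (Nat.cast_ne_zero.mpr (Nat.succ_ne_zero s)) h
    · exact h
  rw [map_sum] at h2
  set U := hat φ (rename Sum.inl (sl i r) *
      PP (K := K) (κ := κ) (ee s A - Pi.single (r, Sum.inl r) 1)) with hU
  have h3 : ∀ p : ι, hat φ (rename Sum.inl (sl i p) *
      PP (K := K) (κ := κ) (ee s A - Pi.single (p, Sum.inl r) 1)) =
      if p ∈ A then 0 else U := by
    intro p
    by_cases hp : p ∈ A
    · rw [if_pos hp]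
      exact marked_zero s A r p hr hp φ h0 i
    · have e := hat_slot_rename φ (Equiv.swap r p) (hsym p hp) (rename Sum.inl (sl i r) *
        PP (K := K) (κ := κ) (ee s A - Pi.single (r, Sum.inl r) 1))
      rw [map_mul, rename_PP_slot, ee_slot s A r p hr hp] at e
      rw [if_neg hp, hU, ← e]
      congr 2
      unfold sl
      split
      · simp
      · simp
  rw [Finset.sum_congr rfl (fun p _ => h3 p)] at h2
  have h4 : ∑ p : ι, (if p ∈ A then (0 : MvPolynomial ((ι ⊕ κ) × Fin 2) K) else U) =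
      ((Finset.univ.filter (fun p => p ∉ A)).card : MvPolynomial ((ι ⊕ κ) × Fin 2) K) * U := by
    rw [← nsmul_eq_mul, ← Finset.sum_const, Finset.sum_filter]
    apply Finset.sum_congr rfl
    intro p _
    by_cases hp : p ∈ A <;> simp [hp]
  rw [h4] at h2
  rcases mul_eq_zero.mp h2 with h | h
  · exfalso
    have h5 : (Finset.univ.filter (fun p => p ∉ A)).card ≠ 0 := by
      rw [Finset.card_ne_zero]
      exact ⟨r, by simp [hr]⟩
    exact (Nat.cast_ne_zero.mpr h5) h
  · exact h


/-- the base: all slots marked -/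
def Base (K : Type*) [Field K] (ι κ : Type*) [Fintype ι] [DecidableEq ι] [Fintype κ]
    [DecidableEq κ] (s : ℕ) : Prop :=
  ∀ φ : MvPolynomial ι K →ₗ[K] K,
    hat (Λ := (ι ⊕ κ) × Fin 2) φ (PP (ee s Finset.univ)) = 0 →
    ∀ m : ι →₀ ℕ, (∀ p, m p < (s + 1) * Fintype.card (ι ⊕ κ)) → φ (monomial m 1) = 0

/-- **PB, functional form.** -/
theorem pb_fun [CharZero K] (s : ℕ) (hbase : Base K ι κ s) :
    ∀ (A : Finset ι) (φ : MvPolynomial ι K →ₗ[K] K),
    (∀ p p', p ∉ A → p' ∉ A → ∀ f, φ (rename (Equiv.swap p p') f) = φ f) →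
    hat (Λ := (ι ⊕ κ) × Fin 2) φ (PP (ee s A)) = 0 →
    ∀ m : ι →₀ ℕ, (∀ p, m p + (if p ∈ A then 1 else 0) ≤ (s + 1) * Fintype.card (ι ⊕ κ)) →
      φ (monomial m 1) = 0 := by
  intro A
  induction hn : (Finset.univ \ A).card generalizing A with
  | zero =>
    intro φ _ h0 m hm
    have hA : A = Finset.univ := by
      rw [Finset.card_eq_zero, Finset.sdiff_eq_empty_iff_subset] at hn
      exact Finset.univ_subset_iff.mp hn
    subst hA
    apply hbase φ h0 m
    intro p
    have := hm p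
    rw [if_pos (Finset.mem_univ p)] at this
    omega
  | succ n ih =>
    intro φ hsym h0 m hm
    obtain ⟨r, hr⟩ : (Finset.univ \ A).Nonempty := by
      rw [← Finset.card_pos]; omega
    have hrA : r ∉ A := (Finset.mem_sdiff.mp hr).2
    have hcard : (Finset.univ \ insert r A).card = n := by
      rw [Finset.sdiff_insert, Finset.card_erase_of_mem hr, hn]
      rfl
    have ih' : ∀ i : Fin 2, ∀ m : ι →₀ ℕ,
        (∀ p, m p + (if p ∈ insert r A then 1 else 0) ≤ (s + 1) * Fintype.card (ι ⊕ κ)) →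
        φ (sl i r * monomial m 1) = 0 := by
      intro i
      have := ih (insert r A) hcard (pre φ (sl i r)) ?_
        (step s A r hrA φ (fun p hp f => hsym r p hrA hp f) h0 i)
      · intro m hm
        exact this m hm
      · intro p p' hp hp' f
        rw [Finset.mem_insert, not_or] at hp hp'
        have hfix : rename (Equiv.swap p p') (sl (K := K) i r) = sl i r := by
          unfold sl
          split
          · rw [rename_X, Equiv.swap_apply_of_ne_of_ne (Ne.symm hp.1) (Ne.symm hp'.1)]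
          · simp
        rw [pre_apply, pre_apply]
        conv_lhs => rw [← hfix]
        rw [← map_mul, hsym p p' hp.2 hp'.2]
    have hcpos : 0 < Fintype.card (ι ⊕ κ) := Fintype.card_pos_iff.mpr ⟨Sum.inl r⟩
    rcases Nat.eq_zero_or_pos (m r) with h | h
    · have := ih' 1 m (fun p => ?_)
      · simpa [sl] using this
      · by_cases hp : p = r
        · subst hp
          rw [h, if_pos (Finset.mem_insert_self _ _)]
          have : 1 ≤ (s + 1) * Fintype.card (ι ⊕ κ) := Nat.mul_pos (Nat.succ_pos s) hcpos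
          omega
        · have := hm p
          simpa [Finset.mem_insert, hp] using this
    · have := ih' 0 (m - Finsupp.single r 1) (fun p => ?_)
      · have hX : sl (K := K) 0 r * monomial (m - Finsupp.single r 1) 1 = monomial m 1 := by
          have : sl (K := K) 0 r = monomial (Finsupp.single r 1) 1 := by
            simp [sl, X]
          have h7 : Finsupp.single r 1 + (m - Finsupp.single r 1) = m := by
            refine Finsupp.ext (fun x => ?_)
            by_cases hx : r = x
            · subst hx; simp; omega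
            · simp [Finsupp.single_apply, hx]
          rw [this, monomial_mul, one_mul, h7]
        rw [hX] at this
        exact this
      · by_cases hp : p = r
        · subst hp
          have := hm p
          rw [if_neg hrA] at this
          rw [if_pos (Finset.mem_insert_self _ _)]
          simp only [Finsupp.coe_tsub, Pi.sub_apply, Finsupp.single_eq_same]
          omega
        · have := hm p
          have h2 : (m - Finsupp.single r 1 : ι →₀ ℕ) p = m p := by
            have hp' : ¬ r = p := fun h => hp h.symm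
            simp [Finsupp.single_apply, hp']
          rw [h2]
          simpa [Finset.mem_insert, hp] using this


/-- the fully marked products of the kernel theorem, `y` = roots -/
def Py {X : Type*} [Fintype X] [DecidableEq X] (s : ℕ) (y : X → K) : MvPolynomial X K :=
  ∏ p : X, ((MvPolynomial.X p - C (y p)) ^ s *
    ∏ j ∈ Finset.univ.erase p, (MvPolynomial.X p - C (y j)) ^ (s + 1))

/-- **The binary kernel theorem** for `q = s + 1` and `d = card X` points, in the affine chart:
the products `Py` span all polynomials of degree at most `q d - 1` in every variable. -/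
def K2aff (K : Type*) [Field K] (X : Type*) [Fintype X] [DecidableEq X] (s : ℕ) : Prop :=
  ∀ m : X →₀ ℕ, (∀ p, m p < (s + 1) * Fintype.card X) →
    (monomial m 1 : MvPolynomial X K) ∈
      Submodule.span K (Set.range (fun y : X → K => Py s y))

theorem base_of_K2 (s : ℕ) (h : K2aff K (ι ⊕ κ) s) : Base K ι κ s := by
  intro φ h0 m hm
  set ev : MvPolynomial (ι ⊕ κ) K →ₐ[K] MvPolynomial ι K := aeval (Sum.elim X (fun _ => 0))
    with hev
  have hker : ∀ f ∈ Submodule.span K (Set.range (fun y : ι ⊕ κ → K => Py s y)),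
      φ (ev f) = 0 := by
    intro f hf
    induction hf using Submodule.span_induction with
    | mem f hf =>
      obtain ⟨y, rfl⟩ := hf
      -- the substitution `α_j = 1`, `β_j = - y_j`
      set z : (ι ⊕ κ) × Fin 2 → K := fun x => if x.2 = 0 then 1 else - y x.1 with hz
      have hlin : ∀ (j : ι ⊕ κ) (p : ι), sub z (lin (K := K) j p) = X p - C (y j) := by
        intro j p
        simp [sub, lin, hz]
        ring
      have hPP : sub z (PP (K := K) (ee (κ := κ) s Finset.univ)) =
          ∏ p : ι, ((X p - C (y (Sum.inl p))) ^ s *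
            ∏ j ∈ Finset.univ.erase (Sum.inl p : ι ⊕ κ), (X p - C (y j)) ^ (s + 1)) := by
        rw [PP, map_prod, Fintype.prod_prod_type]
        apply Finset.prod_congr rfl
        intro p _
        rw [← Finset.mul_prod_erase Finset.univ _ (Finset.mem_univ (Sum.inl p : ι ⊕ κ))]
        congr 1
        · rw [map_pow, hlin]
          simp [ee]
        · apply Finset.prod_congr rfl
          intro j hj
          rw [map_pow, hlin]
          have : j ≠ Sum.inl p := Finset.ne_of_mem_erase hj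
          simp [ee, this]
      have hPy : ev (Py s y) = C (∏ k : κ, ((0 - y (Sum.inr k)) ^ s *
            ∏ j ∈ Finset.univ.erase (Sum.inr k : ι ⊕ κ), (0 - y j) ^ (s + 1))) *
          sub z (PP (K := K) (ee (κ := κ) s Finset.univ)) := by
        rw [hPP, Py, map_prod, Fintype.prod_sum_type, mul_comm]
        congr 1
        · rw [map_prod]
          apply Finset.prod_congr rfl
          intro k _
          simp [hev, map_mul, map_pow, map_prod, map_sub]
        · apply Finset.prod_congr rfl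
          intro p _
          simp [hev, map_mul, map_pow, map_prod, map_sub]
      rw [hPy, ← smul_eq_C_mul, map_smul, ← eval_hat, h0, map_zero, smul_zero]
    | zero => simp
    | add f g _ _ hf hg => rw [map_add, map_add, hf, hg, add_zero]
    | smul c f _ hf => rw [map_smul, map_smul, hf, smul_zero]
  have hmem := h (m.mapDomain Sum.inl) ?_
  · have := hker _ hmem
    rw [← rename_monomial] at this
    have h2 : ev (rename Sum.inl (monomial m (1 : K))) = monomial m 1 := by
      rw [hev, aeval_rename]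
      rw [show (Sum.elim X (fun _ => 0) ∘ Sum.inl : ι → MvPolynomial ι K) = X by ext; simp]
      exact aeval_X_left_apply _
    rw [h2] at this
    exact this
  · intro p
    rcases p with p | k
    · rw [Finsupp.mapDomain_apply Sum.inl_injective]
      exact hm p
    · rw [Finsupp.mapDomain_of_notMem_range _ _ (by simp)]
      exact Nat.mul_pos (Nat.succ_pos s) (Fintype.card_pos_iff.mpr ⟨Sum.inr k⟩)

end

end Vale.Agent.P181.H482
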