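import Mathlib

set_option autoImplicit false

/-!
# Functionals applied to the slot variables

For a functional `φ` on `MvPolynomial σ K` we define its extension `hat φ` to polynomials in
slot variables `σ` and letter variables `Λ`, with values in the polynomials in the letters.
-/

namespace Vale.Agent.P181.H482

open MvPolynomial

noncomputable section

variable {K : Type*} [Field K] {σ Λ : Type*}

/-- the extension of a functional in the slot variables to slot and letter variables -/
def hat (φ : MvPolynomial σ K →ₗ[K] K) : MvPolynomial (σ ⊕ Λ) K →ₗ[K] MvPolynomial Λ K :=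
  (basisMonomials (σ ⊕ Λ) K).constr K (fun m =>
    φ (monomial (Finsupp.sumFinsuppEquivProdFinsupp m).1 1) •
      (monomial (Finsupp.sumFinsuppEquivProdFinsupp m).2 (1 : K)))

theorem monomial_split (m : σ ⊕ Λ →₀ ℕ) :
    (monomial m (1 : K)) =
      rename Sum.inl (monomial (Finsupp.sumFinsuppEquivProdFinsupp m).1 (1 : K)) *
      rename Sum.inr (monomial (Finsupp.sumFinsuppEquivProdFinsupp m).2 (1 : K)) := by
  rw [rename_monomial, rename_monomial, monomial_mul, one_mul]
  have h : m = Finsupp.mapDomain Sum.inl (Finsupp.sumFinsuppEquivProdFinsupp m).1 +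
      Finsupp.mapDomain Sum.inr (Finsupp.sumFinsuppEquivProdFinsupp m).2 := by
    refine Finsupp.ext (fun x => ?_)
    rcases x with x | x
    · rw [Finsupp.add_apply, Finsupp.mapDomain_apply Sum.inl_injective,
        Finsupp.mapDomain_of_notMem_range _ _ (by simp)]
      simp
    · rw [Finsupp.add_apply, Finsupp.mapDomain_apply Sum.inr_injective,
        Finsupp.mapDomain_of_notMem_range _ _ (by simp)]
      simp
  rw [← h]

/-- two linear maps which agree on products are equal -/
theorem lin_ext {M : Type*} [AddCommGroup M] [Module K M]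
    {f g : MvPolynomial (σ ⊕ Λ) K →ₗ[K] M}
    (h : ∀ (a : MvPolynomial σ K) (b : MvPolynomial Λ K),
      f (rename Sum.inl a * rename Sum.inr b) = g (rename Sum.inl a * rename Sum.inr b)) :
    f = g := by
  apply (basisMonomials (σ ⊕ Λ) K).ext
  intro m
  rw [coe_basisMonomials]
  show f (monomial m (1 : K)) = g (monomial m (1 : K))
  rw [monomial_split m]
  exact h _ _

theorem hat_monomial (φ : MvPolynomial σ K →ₗ[K] K) (m : σ ⊕ Λ →₀ ℕ) :
    hat (Λ := Λ) φ (monomial m 1) =
      φ (monomial (Finsupp.sumFinsuppEquivProdFinsupp m).1 1) •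
      (monomial (Finsupp.sumFinsuppEquivProdFinsupp m).2 (1 : K)) := by
  have := (basisMonomials (σ ⊕ Λ) K).constr_basis K (fun m =>
    φ (monomial (Finsupp.sumFinsuppEquivProdFinsupp m).1 1) •
      (monomial (Finsupp.sumFinsuppEquivProdFinsupp m).2 (1 : K))) m
  rw [coe_basisMonomials] at this
  exact this

theorem hat_mul (φ : MvPolynomial σ K →ₗ[K] K) (a : MvPolynomial σ K) (b : MvPolynomial Λ K) :
    hat φ (rename Sum.inl a * rename Sum.inr b) = φ a • b := by
  -- both sides are bilinear
  have key : ∀ (u : σ →₀ ℕ) (v : Λ →₀ ℕ),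
      hat (Λ := Λ) φ (rename Sum.inl (monomial u (1 : K)) * rename Sum.inr (monomial v (1 : K)))
        = φ (monomial u 1) • monomial v (1 : K) := by
    intro u v
    have hm := monomial_split (K := K) (Finsupp.sumFinsuppEquivProdFinsupp.symm (u, v))
    rw [Equiv.apply_symm_apply] at hm
    have h2 := hat_monomial (Λ := Λ) φ (Finsupp.sumFinsuppEquivProdFinsupp.symm (u, v))
    rw [Equiv.apply_symm_apply] at h2
    rw [hm] at h2
    exact h2
  have step1 : ∀ (u : σ →₀ ℕ),
      ((hat (Λ := Λ) φ).comp ((LinearMap.mulLeft K (rename Sum.inl (monomial u (1 : K)))).comp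
        (rename (Sum.inr : Λ → σ ⊕ Λ)).toLinearMap))
        = (φ (monomial u 1)) • LinearMap.id := by
    intro u
    apply (basisMonomials Λ K).ext
    intro v
    rw [coe_basisMonomials]
    simpa using key u v
  have step2 : ((hat (Λ := Λ) φ).comp ((LinearMap.mulRight K (rename Sum.inr b)).comp
        (rename (Sum.inl : σ → σ ⊕ Λ)).toLinearMap))
        = LinearMap.smulRight φ b := by
    apply (basisMonomials σ K).ext
    intro u
    rw [coe_basisMonomials]
    have := LinearMap.congr_fun (step1 u) b
    simpa using this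
  have := LinearMap.congr_fun step2 a
  simpa using this

theorem hat_letter_mul (φ : MvPolynomial σ K →ₗ[K] K) (g : MvPolynomial Λ K)
    (F : MvPolynomial (σ ⊕ Λ) K) :
    hat φ (rename Sum.inr g * F) = g * hat φ F := by
  have h : (hat (Λ := Λ) φ).comp (LinearMap.mulLeft K (rename Sum.inr g))
      = (LinearMap.mulLeft K g).comp (hat φ) := by
    apply lin_ext
    intro a b
    simp only [LinearMap.comp_apply, LinearMap.mulLeft_apply]
    rw [show rename Sum.inr g * (rename Sum.inl a * rename Sum.inr b)
        = rename Sum.inl a * rename Sum.inr (g * b) by rw [map_mul]; ring]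
    rw [hat_mul, hat_mul, mul_smul_comm]
  exact LinearMap.congr_fun h F

theorem hat_pderiv [DecidableEq σ] [DecidableEq Λ] (φ : MvPolynomial σ K →ₗ[K] K) (x : Λ) (F : MvPolynomial (σ ⊕ Λ) K) :
    hat φ (pderiv (Sum.inr x) F) = pderiv x (hat φ F) := by
  have h : (hat (Λ := Λ) φ).comp ((pderiv (R := K) (Sum.inr x : σ ⊕ Λ)).toLinearMap)
      = ((pderiv (R := K) x).toLinearMap).comp (hat φ) := by
    apply lin_ext
    intro a b
    simp only [LinearMap.comp_apply, Derivation.coeFn_coe]
    rw [hat_mul, Derivation.leibniz]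
    have h1 : pderiv (Sum.inr x : σ ⊕ Λ) (rename Sum.inl a) = 0 := by
      apply pderiv_eq_zero_of_notMem_vars
      intro hx
      have := vars_rename (R := K) (Sum.inl : σ → σ ⊕ Λ) a hx
      simp at this
    have h2 : pderiv (Sum.inr x : σ ⊕ Λ) (rename Sum.inr b) = rename Sum.inr (pderiv x b) := by
      exact pderiv_rename Sum.inr_injective x b
    rw [h1, h2, smul_zero, add_zero, smul_eq_mul, hat_mul, (pderiv x).map_smul]
  exact LinearMap.congr_fun h F

theorem hat_letter_rename (φ : MvPolynomial σ K →ₗ[K] K) (e : Λ → Λ)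
    (F : MvPolynomial (σ ⊕ Λ) K) :
    hat φ (rename (Sum.map id e) F) = rename e (hat φ F) := by
  have h : (hat (Λ := Λ) φ).comp (rename (R := K) (Sum.map id e : σ ⊕ Λ → σ ⊕ Λ)).toLinearMap
      = (rename (R := K) e).toLinearMap.comp (hat φ) := by
    apply lin_ext
    intro a b
    simp only [LinearMap.comp_apply, AlgHom.toLinearMap_apply]
    rw [map_mul, rename_rename, rename_rename, hat_mul, map_smul]
    rw [show (Sum.map id e ∘ Sum.inl : σ → σ ⊕ Λ) = Sum.inl by ext; simp]
    rw [show (Sum.map id e ∘ Sum.inr : Λ → σ ⊕ Λ) = Sum.inr ∘ e by ext; simp]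
    rw [← rename_rename, hat_mul]
  exact LinearMap.congr_fun h F

theorem hat_slot_rename (φ : MvPolynomial σ K →ₗ[K] K) (τ : σ → σ)
    (hφ : ∀ f, φ (rename τ f) = φ f) (F : MvPolynomial (σ ⊕ Λ) K) :
    hat φ (rename (Sum.map τ id) F) = hat φ F := by
  have h : (hat (Λ := Λ) φ).comp (rename (R := K) (Sum.map τ id : σ ⊕ Λ → σ ⊕ Λ)).toLinearMap
      = hat φ := by
    apply lin_ext
    intro a b
    simp only [LinearMap.comp_apply, AlgHom.toLinearMap_apply]
    rw [map_mul, rename_rename, rename_rename, hat_mul]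
    rw [show (Sum.map τ id ∘ Sum.inl : σ → σ ⊕ Λ) = Sum.inl ∘ τ by ext; simp]
    rw [show (Sum.map τ id ∘ Sum.inr : Λ → σ ⊕ Λ) = Sum.inr by ext; simp]
    rw [← rename_rename, hat_mul, hφ]
  exact LinearMap.congr_fun h F

/-- the functional `f ↦ φ (p * f)` -/
def pre (φ : MvPolynomial σ K →ₗ[K] K) (p : MvPolynomial σ K) : MvPolynomial σ K →ₗ[K] K :=
  φ.comp (LinearMap.mulLeft K p)

@[simp] theorem pre_apply (φ : MvPolynomial σ K →ₗ[K] K) (p f : MvPolynomial σ K) :
    pre φ p f = φ (p * f) := rfl

theorem hat_pre (φ : MvPolynomial σ K →ₗ[K] K) (p : MvPolynomial σ K)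
    (F : MvPolynomial (σ ⊕ Λ) K) :
    hat (pre φ p) F = hat φ (rename Sum.inl p * F) := by
  have h : hat (Λ := Λ) (pre φ p)
      = (hat φ).comp (LinearMap.mulLeft K (rename Sum.inl p)) := by
    apply lin_ext
    intro a b
    simp only [LinearMap.comp_apply, LinearMap.mulLeft_apply]
    rw [hat_mul, ← mul_assoc, ← map_mul, hat_mul]
    rfl
  exact LinearMap.congr_fun h F

/-- substitution of numbers for the letters -/
def sub (z : Λ → K) : MvPolynomial (σ ⊕ Λ) K →ₐ[K] MvPolynomial σ K :=
  aeval (Sum.elim X (fun x => C (z x)))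

theorem eval_hat (φ : MvPolynomial σ K →ₗ[K] K) (z : Λ → K) (F : MvPolynomial (σ ⊕ Λ) K) :
    eval z (hat φ F) = φ (sub z F) := by
  have h : (aeval (R := K) z).toLinearMap.comp (hat (Λ := Λ) φ)
      = φ.comp (sub (σ := σ) z).toLinearMap := by
    apply lin_ext
    intro a b
    simp only [LinearMap.comp_apply, AlgHom.toLinearMap_apply]
    rw [hat_mul, map_mul (sub z), map_smul]
    have h1 : sub z (rename Sum.inl a) = a := by
      rw [sub, aeval_rename]
      rw [show (Sum.elim X (fun x => C (z x)) ∘ Sum.inl : σ → MvPolynomial σ K) = X by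
        ext; simp]
      exact aeval_X_left_apply a
    have h2 : sub z (rename Sum.inr b) = C (σ := σ) (aeval z b) := by
      rw [sub, aeval_rename]
      rw [show (Sum.elim X (fun x => C (z x)) ∘ Sum.inr : Λ → MvPolynomial σ K)
        = fun x => C (z x) by ext; simp]
      have hh : (aeval (fun x => C (σ := σ) (z x)) : MvPolynomial Λ K →ₐ[K] MvPolynomial σ K)
          = (Algebra.ofId K (MvPolynomial σ K)).comp (aeval z) := by
        apply algHom_ext
        intro i
        simp [Algebra.ofId_apply, algebraMap_eq]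
      exact DFunLike.congr_fun hh b
    rw [h1, h2, mul_comm, ← smul_eq_C_mul, map_smul, smul_eq_mul, smul_eq_mul, mul_comm]
  have := LinearMap.congr_fun h F
  simp only [LinearMap.comp_apply, AlgHom.toLinearMap_apply] at this
  rw [← this]
  rfl

end

end Vale.Agent.P181.H482
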