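import Vale.Agent.P181.H482.PB

set_option autoImplicit false

/-!
# Span form of block E: products with marks in `A` span
-/

namespace Vale.Agent.P181.H482

open MvPolynomial

noncomputable section

variable {K : Type*} [Field K] {ι κ : Type*} [Fintype ι] [DecidableEq ι] [Fintype κ]
  [DecidableEq κ]

theorem rename_PP_perm (τ : Equiv.Perm ι) (e : ι × (ι ⊕ κ) → ℕ) :
    rename (Sum.map τ id) (PP (K := K) e) = PP (fun x => e (τ.symm x.1, x.2)) := by
  have h : ∀ (j : ι ⊕ κ) (p : ι), rename (Sum.map τ id) (lin (K := K) j p) = lin j (τ p) := by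
    intro j p; simp [lin]
  rw [PP, map_prod, PP]
  simp only [map_pow, h]
  rw [Fintype.prod_prod_type, Fintype.prod_prod_type]
  apply Fintype.prod_equiv τ
  intro p
  apply Finset.prod_congr rfl
  intro j _
  simp

theorem rename_sub (τ : Equiv.Perm ι) (z : (ι ⊕ κ) × Fin 2 → K)
    (F : MvPolynomial (ι ⊕ ((ι ⊕ κ) × Fin 2)) K) :
    rename τ (sub z F) = sub z (rename (Sum.map τ id) F) := by
  have h : (rename τ).comp (sub (σ := ι) z) = (sub z).comp (rename (R := K) (Sum.map τ id)) := by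
    apply algHom_ext
    intro i
    rcases i with i | i <;> simp [sub]
  exact DFunLike.congr_fun h F

theorem ee_perm (s : ℕ) (A : Finset ι) (σ : Equiv.Perm {p // p ∉ A}) :
    (fun x : ι × (ι ⊕ κ) => ee s A ((Equiv.Perm.ofSubtype σ).symm x.1, x.2)) = ee s A := by
  funext x
  obtain ⟨x, j⟩ := x
  have hs : (Equiv.Perm.ofSubtype σ).symm x = Equiv.Perm.ofSubtype σ⁻¹ x := by
    rw [map_inv]; rfl
  have hs2 : ee s A ((Equiv.Perm.ofSubtype σ).symm x, j) =
      ee s A (Equiv.Perm.ofSubtype σ⁻¹ x, j) := by rw [hs]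
  show ee s A ((Equiv.Perm.ofSubtype σ).symm x, j) = _
  rw [hs2]
  by_cases hx : x ∈ A
  · rw [Equiv.Perm.ofSubtype_apply_of_not_mem σ⁻¹ (by simpa using hx)]
  · have h1 : Equiv.Perm.ofSubtype σ⁻¹ x ∉ A := by
      rw [Equiv.Perm.ofSubtype_apply_of_mem σ⁻¹ hx]
      exact (σ⁻¹ ⟨x, hx⟩).2
    unfold ee
    rw [if_neg (fun h => h1 h.2), if_neg (fun h => hx h.2)]

theorem sub_invariant (s : ℕ) (A : Finset ι) (σ : Equiv.Perm {p // p ∉ A})
    (z : (ι ⊕ κ) × Fin 2 → K) :
    rename (Equiv.Perm.ofSubtype σ) (sub z (PP (K := K) (ee (κ := κ) s A))) =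
      sub z (PP (ee s A)) := by
  rw [rename_sub, rename_PP_perm, ee_perm]

/-- **PB, span form.**  Every polynomial of degree at most `q c - 1` in the variables of the
marked slots and at most `q c` in the other ones (`q = s + 1`, `c` = number of letters), symmetric
in the slots which are not marked, is in the span of the products with marks in `A`. -/
theorem pb_span [CharZero K] (s : ℕ) (h : K2aff K (ι ⊕ κ) s) (A : Finset ι)
    (f : MvPolynomial ι K)
    (hdeg : ∀ p, f.degreeOf p + (if p ∈ A then 1 else 0) ≤ (s + 1) * Fintype.card (ι ⊕ κ))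
    (hf : ∀ p p', p ∉ A → p' ∉ A → rename (Equiv.swap p p') f = f) :
    f ∈ Submodule.span K (Set.range (fun z : (ι ⊕ κ) × Fin 2 → K =>
      sub z (PP (K := K) (ee (κ := κ) s A)))) := by
  by_contra hcon
  obtain ⟨φ, hφf, hφ⟩ := Submodule.exists_le_ker_of_notMem hcon
  -- symmetrise
  set φ' : MvPolynomial ι K →ₗ[K] K := ∑ σ : Equiv.Perm {p // p ∉ A},
    φ.comp (rename (R := K) (Equiv.Perm.ofSubtype σ : Equiv.Perm ι)).toLinearMap with hφ'
  have hφ'a : ∀ g, φ' g = ∑ σ : Equiv.Perm {p // p ∉ A},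
      φ (rename (Equiv.Perm.ofSubtype σ : Equiv.Perm ι) g) := by
    intro g
    simp [hφ', LinearMap.sum_apply]
  have hsym : ∀ p p', p ∉ A → p' ∉ A → ∀ g, φ' (rename (Equiv.swap p p') g) = φ' g := by
    intro p p' hp hp' g
    rw [hφ'a, hφ'a]
    apply Fintype.sum_equiv (Equiv.mulRight (Equiv.swap (⟨p, hp⟩ : {p // p ∉ A}) ⟨p', hp'⟩))
    intro σ
    have e1 : (Equiv.swap p p' : Equiv.Perm ι) = Equiv.Perm.ofSubtype
        (Equiv.swap (⟨p, hp⟩ : {p // p ∉ A}) ⟨p', hp'⟩) := by
      rw [Equiv.Perm.ofSubtype_swap_eq]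
    rw [rename_rename, e1, Equiv.coe_mulRight, map_mul]
    rfl
  have hinv : ∀ σ : Equiv.Perm {p // p ∉ A}, rename (Equiv.Perm.ofSubtype σ : Equiv.Perm ι) f
      = f := by
    intro σ
    induction σ using Equiv.Perm.swap_induction_on with
    | one =>
      rw [map_one]
      exact rename_id_apply f
    | swap_mul σ x y hxy ih =>
      rw [map_mul, Equiv.Perm.ofSubtype_swap_eq, Equiv.Perm.coe_mul, ← rename_rename, ih]
      exact hf _ _ x.2 y.2
  have h1 : φ' f ≠ 0 := by
    rw [hφ'a]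
    simp only [hinv, Finset.sum_const, Finset.card_univ, nsmul_eq_mul]
    apply mul_ne_zero _ hφf
    exact Nat.cast_ne_zero.mpr Fintype.card_ne_zero
  have h2 : hat (Λ := (ι ⊕ κ) × Fin 2) φ' (PP (ee s A)) = 0 := by
    apply MvPolynomial.funext
    intro z
    rw [eval_hat, hφ'a, map_zero]
    apply Finset.sum_eq_zero
    intro σ _
    rw [sub_invariant]
    exact hφ (Submodule.subset_span ⟨z, rfl⟩)
  have h3 := pb_fun s (base_of_K2 s h) A φ' hsym h2
  apply h1
  rw [f.as_sum, map_sum]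
  apply Finset.sum_eq_zero
  intro m hm
  rw [show monomial m (coeff m f) = coeff m f • monomial m (1 : K) by
    rw [smul_monomial, smul_eq_mul, mul_one], map_smul, h3 m, smul_zero]
  intro p
  refine le_trans ?_ (hdeg p)
  gcongr
  exact monomial_le_degreeOf p hm

end

end Vale.Agent.P181.H482
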